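import Vale.Agent.P180.Int.Ser
import Vale.Agent.P180.H768.Final

namespace Vale.Agent.Results.P180.NormalSeries

open Vale.Agent.P180 IsLocalRing

universe u

/-- Fix `p` and bounds `n`, `m`. There is a finite list `H 1, …, H r` of finite groups, depending
only on `p`, `n`, `m`, such that:

(1) for every algebraically closed field `k` of characteristic `p` there are blocks `c i` of
`k[H i]` with the following property. Let `G` be a finite group and `b` a block of `kG` with a
defect group `D` of order at most `n`, and suppose that `G` has a normal series of any length,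
each of whose layers `L = N (i + 1) / N i` satisfies: the image of `D ∩ N (i + 1)` in `L` is central
in `L`; or every nonabelian simple section of `L` of order divisible by `p` has order at most `m` or
is of local characteristic `p` up to order `n` (and, if `p ≠ 2`, has Sylow `p`-subgroups of order
greater than `n`); or `p = 2` and the centralisers of the involutions of `L` are `2`-groups. Then
`kGb` is `k`-linearly Morita equivalent to one of the `r` block algebras `k[H i](c i)`.

(2) for every complete discrete valuation ring `O` with algebraically closed residue field of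
characteristic `p` there are blocks `C i` of `O[H i]` such that the same holds for the blocks of
`OG` and `O`-linear Morita equivalence.

(3) The condition holds if there is a normal subgroup `N` of `G` such that `D ∩ N` is central in
`N` and every composition factor of `M N / N` of order divisible by `p` has order at most `m`,
where `M` is the normal closure of `D`. -/
theorem result (p : ℕ) [Fact p.Prime] (n m : ℕ) :
    ∃ (r : ℕ) (H : Fin r → Type) (_ : ∀ i, Group (H i)) (_ : ∀ i, Finite (H i)),
      (∀ (k : Type u) [Field k] [IsAlgClosed k] [CharP k p],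
        ∃ (c : ∀ i, MonoidAlgebra k (H i)) (hc : ∀ i, IsBlockR (c i)),
          ∀ (G : Type) [Group G] [Finite G] (b : MonoidAlgebra k G) (hb : IsBlockR b)
            (D : Subgroup G), IsDefectGroupR b D → Nat.card D ≤ n → HasGoodSeries p n m D →
            ∃ i, IsMoritaEquivalent k hb.Alg (hc i).Alg) ∧
      (∀ (O : Type u) [CommRing O] [IsDomain O] [IsDiscreteValuationRing O]
        [IsAdicComplete (maximalIdeal O) O] [IsAlgClosed (ResidueField O)]
        [CharP (ResidueField O) p],
        ∃ (C : ∀ i, MonoidAlgebra O (H i)) (hC : ∀ i, IsBlockR (C i)),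
          ∀ (G : Type) [Group G] [Finite G] (B : MonoidAlgebra O G) (hB : IsBlockR B)
            (D : Subgroup G),
            (IsDefectGroupR B D ∨
              IsDefectGroupR (MonoidAlgebra.mapRingHom G (residue O) B) D) → Nat.card D ≤ n →
            HasGoodSeries p n m D →
            ∃ i, IsMoritaEquivalent O hB.Alg (hC i).Alg) ∧
      (∀ (G : Type) [Group G] [Finite G] (D N : Subgroup G) [N.Normal],
        (∀ x ∈ D, x ∈ N → ∀ y ∈ N, x * y = y * x) →
        BoundedFactors p m
          ((Subgroup.normalClosure (D : Set G)).map (QuotientGroup.mk' N)) →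
        HasGoodSeries p n m D) := by
  obtain ⟨r, H, iG, iF, hfam⟩ := I.family.{u} (H768.Gd.bound p n m)
  refine ⟨r, H, iG, iF, ?_, ?_, ?_⟩
  · intro k _ _ _
    obtain ⟨c, hc, h⟩ := hfam k (fun H _ _ => I.card_blocks k H)
    refine ⟨c, hc, ?_⟩
    intro G _ _ b hb D hD hn hs
    obtain ⟨l, N, hN, h0, hl, hle, hlay⟩ := H768.Gd.series_spec hs
    obtain ⟨H', _, _, c', hc', hcard, hM⟩ :=
      H768.Gd.series_field (H768.Gd.le_mm p n m) hb hD hn l N h0 hl hle hlay
    obtain ⟨i, ⟨f⟩⟩ := h H' hcard c' hc'
    exact ⟨i, IsMoritaEquivalent.trans k hM (IsMoritaEquivalent.of_algEquiv k f)⟩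
  · intro O _ _ _ _ _ _
    obtain ⟨C, hC, h⟩ := hfam O (fun H _ _ => I.card_blocksO O H)
    refine ⟨C, hC, ?_⟩
    intro G _ _ B hB D hD hn hs
    obtain ⟨l, N, hN, h0, hl, hle, hlay⟩ := H768.Gd.series_spec hs
    obtain ⟨H', _, _, C', hC', hcard, hM⟩ :=
      H768.Gd.series_integral (H768.Gd.le_mm p n m) hB hD hn l N h0 hl hle hlay
    obtain ⟨i, ⟨f⟩⟩ := h H' hcard C' hC'
    exact ⟨i, IsMoritaEquivalent.trans O hM (IsMoritaEquivalent.of_algEquiv O f)⟩
  · intro G _ _ D N _ hDN h
    exact H768.Gd.hasGoodSeries_of_closure N hDN h

end Vale.Agent.Results.P180.NormalSeries
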